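import Mathlib

namespace Vale.Agent.Lib.P064

open Finset

/-- two patterns whose roots have the same depth and which share a vertex have the same root -/
theorem pattern_root_unique {V : Type*} (par : V → Option V) (d : V → ℕ)
    (hd : ∀ u v, par u = some v → d u = d v + 1)
    (E : V → Finset V) [DecidableEq V]
    (hE1 : ∀ v, ∀ x ∈ E v, par x = some v ∨ ∃ y ∈ E v, par x = some y)
    (hE2 : ∀ v, ∀ x ∈ E v, d v < d x ∧ d x ≤ d v + (E v).card) :
    ∀ (m : ℕ) (x v v' : V), d x = m → x ∈ insert v (E v) → x ∈ insert v' (E v') →
      d v = d v' → v = v' := by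
  intro m
  induction m using Nat.strong_induction_on with
  | _ m ih =>
    intro x v v' hx h1 h2 hvv
    rw [mem_insert] at h1 h2
    rcases h1 with h1 | h1
    · rcases h2 with h2 | h2
      · rw [← h1, ← h2]
      · have := (hE2 v' x h2).1
        rw [h1] at this
        omega
    · rcases h2 with h2 | h2
      · have := (hE2 v x h1).1
        rw [h2] at this
        omega
      · -- `x` lies in both patterns: go to its parent
        have hp1 : ∃ y, par x = some y ∧ y ∈ insert v (E v) := by
          rcases hE1 v x h1 with h | ⟨y, hy, h⟩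
          · exact ⟨v, h, mem_insert_self _ _⟩
          · exact ⟨y, h, mem_insert_of_mem hy⟩
        have hp2 : ∃ y, par x = some y ∧ y ∈ insert v' (E v') := by
          rcases hE1 v' x h2 with h | ⟨y, hy, h⟩
          · exact ⟨v', h, mem_insert_self _ _⟩
          · exact ⟨y, h, mem_insert_of_mem hy⟩
        obtain ⟨y, hy, hy1⟩ := hp1
        obtain ⟨y', hy', hy2⟩ := hp2
        have hyy : y = y' := by
          rw [hy] at hy'
          exact Option.some.inj hy'
        rw [← hyy] at hy2
        have hdy := hd x y hy
        exact ih (d y) (by omega) y v v' rfl hy1 hy2 hvv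

theorem freq_family {V : Type*} [Fintype V] [DecidableEq V] (par : V → Option V) (d : V → ℕ)
    (hd : ∀ u v, par u = some v → d u = d v + 1)
    (E : V → Finset V)
    (hE1 : ∀ v, ∀ x ∈ E v, par x = some v ∨ ∃ y ∈ E v, par x = some y)
    (hE2 : ∀ v, ∀ x ∈ E v, d v < d x ∧ d x ≤ d v + (E v).card)
    (C : Finset V) (k r : ℕ) (hk : 1 ≤ k) (hCk : ∀ v ∈ C, (E v).card = k)
    (hCr : ∀ v ∈ C, d v % (k + 1) = r) :
    ∃ p : V → Option V, (∀ x y, p x = some y → par x = some y) ∧
      (Finset.univ.filter (fun x => p x ≠ none)).card = C.card * k ∧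
      (Finset.univ.filter (fun y => p y = none ∧ ∃ x, p x = some y)).card = C.card ∧
      ∏ v ∈ C, ∏ y ∈ insert v (E v), ((E v).filter (fun x => par x = some y)).card.factorial ≤
        ∏ y, ((Finset.univ.filter (fun x => p x = some y)).card.factorial) := by
  classical
  -- depth window of a pattern vertex
  have hwin : ∀ v ∈ C, ∀ x ∈ insert v (E v), d v ≤ d x ∧ d x ≤ d v + k := by
    intro v hv x hx
    rw [mem_insert] at hx
    rcases hx with hx | hx
    · rw [hx]
      omega
    · have h := hE2 v x hx
      rw [hCk v hv] at h
      omega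
  -- equal depth of the roots of two patterns of `C` that meet
  have hdepth : ∀ v ∈ C, ∀ v' ∈ C, ∀ x, x ∈ insert v (E v) → x ∈ insert v' (E v') →
      d v = d v' := by
    intro v hv v' hv' x hx hx'
    have h1 := hwin v hv x hx
    have h2 := hwin v' hv' x hx'
    have hr : d v % (k + 1) = d v' % (k + 1) := by rw [hCr v hv, hCr v' hv']
    rcases le_total (d v) (d v') with hle | hle
    · have h3 : (d v' - d v) % (k + 1) = 0 := Nat.sub_mod_eq_zero_of_mod_eq hr.symm
      have h4 : (d v' - d v) % (k + 1) = d v' - d v := Nat.mod_eq_of_lt (by omega)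
      omega
    · have h3 : (d v - d v') % (k + 1) = 0 := Nat.sub_mod_eq_zero_of_mod_eq hr
      have h4 : (d v - d v') % (k + 1) = d v - d v' := Nat.mod_eq_of_lt (by omega)
      omega
  have huniq : ∀ v ∈ C, ∀ v' ∈ C, ∀ x, x ∈ insert v (E v) → x ∈ insert v' (E v') → v = v' := by
    intro v hv v' hv' x hx hx'
    exact pattern_root_unique par d hd E hE1 hE2 (d x) x v v' rfl hx hx'
      (hdepth v hv v' hv' x hx hx')
  have hdisjS : ∀ v ∈ C, ∀ v' ∈ C, v ≠ v' → Disjoint (insert v (E v)) (insert v' (E v')) := by
    intro v hv v' hv' hne
    rw [Finset.disjoint_left]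
    intro x hx hx'
    exact hne (huniq v hv v' hv' x hx hx')
  have hdisjE : ∀ v ∈ C, ∀ v' ∈ C, v ≠ v' → Disjoint (E v) (E v') := by
    intro v hv v' hv' hne
    exact Finset.disjoint_of_subset_left (subset_insert _ _)
      (Finset.disjoint_of_subset_right (subset_insert _ _) (hdisjS v hv v' hv' hne))
  -- vertices of a pattern have a parent
  have hparE : ∀ v, ∀ x ∈ E v, par x ≠ none := by
    intro v x hx h
    rcases hE1 v x hx with h' | ⟨y, -, h'⟩
    · rw [h] at h'
      exact Option.some_ne_none _ h'.symm
    · rw [h] at h'
      exact Option.some_ne_none _ h'.symm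
  set U := C.biUnion E with hU
  refine ⟨fun x => if x ∈ U then par x else none, ?_, ?_, ?_, ?_⟩
  · -- a sub-parent-function
    intro x y h
    by_cases hx : x ∈ U
    · simpa [hx] using h
    · simp [hx] at h
  · -- the non-roots are exactly `U`
    have hset : (Finset.univ.filter (fun x => (if x ∈ U then par x else none) ≠ none)) = U := by
      ext x
      simp only [mem_filter, mem_univ, true_and]
      constructor
      · intro h
        by_contra hx
        simp [hx] at h
      · intro hx
        rw [if_pos hx]
        obtain ⟨v, -, hxv⟩ := mem_biUnion.1 hx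
        exact hparE v x hxv
    rw [hset, hU, Finset.card_biUnion]
    · rw [Finset.sum_congr rfl hCk, Finset.sum_const, smul_eq_mul]
    · intro v hv v' hv' hne
      exact hdisjE v hv v' hv' hne
  · -- the roots with a child are exactly `C`
    have hset : (Finset.univ.filter (fun y => (if y ∈ U then par y else none) = none ∧
        ∃ x, (if x ∈ U then par x else none) = some y)) = C := by
      ext y
      simp only [mem_filter, mem_univ, true_and]
      constructor
      · rintro ⟨hy, x, hx⟩
        by_cases hxU : x ∈ U
        · rw [if_pos hxU] at hx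
          obtain ⟨v, hv, hxv⟩ := mem_biUnion.1 hxU
          rcases hE1 v x hxv with h | ⟨y', hy', h⟩
          · rw [hx] at h
            have : y = v := Option.some.inj h
            rw [this]
            exact hv
          · exfalso
            rw [hx] at h
            have hyy : y = y' := Option.some.inj h
            have hyU : y ∈ U := by
              rw [hyy]
              exact mem_biUnion.2 ⟨v, hv, hy'⟩
            rw [if_pos hyU] at hy
            rw [hyy] at hy
            exact hparE v y' hy' hy
        · rw [if_neg hxU] at hx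
          exact (Option.some_ne_none _ hx.symm).elim
      · intro hy
        have hyU : y ∉ U := by
          intro h
          obtain ⟨v, hv, hyv⟩ := mem_biUnion.1 h
          have hvy : y = v := huniq y hy v hv y (mem_insert_self _ _) (mem_insert_of_mem hyv)
          rw [hvy] at hyv
          have := (hE2 v v hyv).1
          omega
        refine ⟨by rw [if_neg hyU], ?_⟩
        have hne : (E y).Nonempty := by
          rw [← Finset.card_pos, hCk y hy]
          omega
        obtain ⟨x, hx, hmin⟩ := Finset.exists_min_image (E y) d hne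
        have hxU : x ∈ U := mem_biUnion.2 ⟨y, hy, hx⟩
        refine ⟨x, ?_⟩
        rw [if_pos hxU]
        rcases hE1 y x hx with h | ⟨y', hy', h⟩
        · exact h
        · exfalso
          have h1 := hd x y' h
          have h2 := hmin y' hy'
          omega
    rw [hset]
  · -- the factorial weights
    set g : V → ℕ := fun y =>
      (Finset.univ.filter (fun x => (if x ∈ U then par x else none) = some y)).card.factorial
      with hg
    have hstep : ∀ v ∈ C, ∏ y ∈ insert v (E v),
        ((E v).filter (fun x => par x = some y)).card.factorial ≤ ∏ y ∈ insert v (E v), g y := by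
      intro v hv
      refine Finset.prod_le_prod' (fun y _ => ?_)
      rw [hg]
      refine Nat.factorial_le (Finset.card_le_card ?_)
      intro x hx
      rw [mem_filter] at hx ⊢
      have hxU : x ∈ U := mem_biUnion.2 ⟨v, hv, hx.1⟩
      refine ⟨mem_univ _, ?_⟩
      rw [if_pos hxU]
      exact hx.2
    have h1 : ∏ v ∈ C, ∏ y ∈ insert v (E v),
        ((E v).filter (fun x => par x = some y)).card.factorial
        ≤ ∏ v ∈ C, ∏ y ∈ insert v (E v), g y := Finset.prod_le_prod' hstep
    have h2 : ∏ v ∈ C, ∏ y ∈ insert v (E v), g y
        = ∏ y ∈ C.biUnion (fun v => insert v (E v)), g y := by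
      rw [Finset.prod_biUnion]
      intro v hv v' hv' hne
      exact hdisjS v hv v' hv' hne
    have h3 : ∏ y ∈ C.biUnion (fun v => insert v (E v)), g y ≤ ∏ y, g y := by
      refine Finset.prod_le_prod_of_subset_of_one_le' (subset_univ _) (fun y _ _ => ?_)
      rw [hg]
      exact Nat.succ_le_of_lt (Nat.factorial_pos _)
    calc ∏ v ∈ C, ∏ y ∈ insert v (E v),
        ((E v).filter (fun x => par x = some y)).card.factorial
        ≤ ∏ v ∈ C, ∏ y ∈ insert v (E v), g y := h1
      _ = ∏ y ∈ C.biUnion (fun v => insert v (E v)), g y := h2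
      _ ≤ ∏ y, g y := h3

end Vale.Agent.Lib.P064
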